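import Crest.Agent.X262.Gw.Sys

/-!
# Row 262, GW-CORE A (helper10): elementary API of `Sys`

`ext_eq`, `ext_coh`, `loc`, `D_one`, `D_mul`, `D_inv`, `D_ext`, `Mor.m_ext`, `Mor.D_comm`.
-/

set_option autoImplicit false

open scoped ContDiff Topology
open Filter Set Matrix
open Crest.Agent.R208.F Crest.Agent.R208.CW

noncomputable section

namespace Crest.Agent.X262.Gw

namespace Sys

variable {G : Sys} {i j k : G.ι}

/-- a continuous family of arrows is given by the local section -/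
theorem ext_eq {Z : Type*} [TopologicalSpace Z] {f : Z → G.R i j} {z₀ : Z}
    (hf : ContinuousAt f z₀) : ∀ᶠ z in 𝓝 z₀, G.ext (f z₀) (G.tm (f z), G.s (f z)) = f z :=
  hf.eventually (G.ext_inj (f z₀))

theorem tendsto_ext (r : G.R i j) : Tendsto (G.ext r) (𝓝 (G.tm r, G.s r)) (𝓝 r) := by
  have := G.ext_cont r
  rwa [ContinuousAt, G.ext_self] at this

theorem tm_ext (r : G.R i j) : ∀ᶠ z in 𝓝 (G.tm r, G.s r), G.tm (G.ext r z) = z.1 :=
  (G.ext_sec r).mono fun _ h => congrArg Prod.fst h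

theorem s_ext (r : G.R i j) : ∀ᶠ z in 𝓝 (G.tm r, G.s r), G.s (G.ext r z) = z.2 :=
  (G.ext_sec r).mono fun _ h => congrArg Prod.snd h

theorem cont_tms : Continuous fun r : G.R i j => (G.tm r, G.s r) :=
  (G.cont_tm i j).prodMk (G.cont_s i j)

/-- the local sections through nearby arrows have the same germs -/
theorem ext_near (r : G.R i j) :
    ∀ᶠ r' in 𝓝 r, G.ext r' =ᶠ[𝓝 (G.tm r', G.s r')] G.ext r := by
  filter_upwards [(G.ext_inj r).eventually_nhds] with r' h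
  filter_upwards [(tendsto_ext r').eventually h, G.ext_sec r'] with z h1 h2
  rw [h2] at h1
  exact h1.symm

/-- coherence of the local sections -/
theorem ext_coh (r : G.R i j) :
    ∀ᶠ z in 𝓝 (G.tm r, G.s r), G.ext (G.ext r z) =ᶠ[𝓝 z] G.ext r := by
  filter_upwards [(tendsto_ext r).eventually (ext_near r), G.ext_sec r] with z h1 h2
  rwa [h2] at h1

theorem ext_contAt (r : G.R i j) : ∀ᶠ z in 𝓝 (G.tm r, G.s r), ContinuousAt (G.ext r) z := by
  filter_upwards [ext_coh r, G.ext_sec r] with z h1 h2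
  have := G.ext_cont (G.ext r z)
  rw [h2] at this
  exact this.congr h1

theorem ext_smAt (r : G.R i j) :
    ∀ᶠ z in 𝓝 (G.tm r, G.s r), ContDiffAt ℝ ∞ (fun z => G.t (G.ext r z)) z := by
  filter_upwards [ext_coh r, G.ext_sec r] with z h1 h2
  have := G.ext_smooth (G.ext r z)
  rw [h2] at this
  exact this.congr_of_eventuallyEq (h1.mono fun w hw => by simp only [hw])

theorem tendsto_slice (θ : ℝ) (x : G.V i) :
    Tendsto (fun y : G.V i => (θ, y)) (𝓝 x) (𝓝 (θ, x)) :=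
  (continuous_const.prodMk continuous_id).tendsto x

theorem loc_self (r : G.R i j) : G.loc r (G.s r) = G.t r := by rw [loc, G.ext_self]

theorem loc_sm (r : G.R i j) : ContDiffAt ℝ ∞ (G.loc r) (G.s r) :=
  (G.ext_smooth r).comp (G.s r) (contDiffAt_const.prodMk contDiffAt_id)

theorem loc_diff (r : G.R i j) : DifferentiableAt ℝ (G.loc r) (G.s r) :=
  (loc_sm r).differentiableAt (by simp)

theorem loc_tendsto (r : G.R i j) : Tendsto (G.loc r) (𝓝 (G.s r)) (𝓝 (G.t r)) := by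
  have := (loc_sm r).continuousAt
  rwa [ContinuousAt, loc_self] at this

/-- the arrows of the same time near `r`, parametrised by their sources -/
theorem slice_tendsto (r : G.R i j) :
    Tendsto (fun y => G.ext r (G.tm r, y)) (𝓝 (G.s r)) (𝓝 r) :=
  (tendsto_ext r).comp (tendsto_slice _ _)

theorem slice_sec (r : G.R i j) : ∀ᶠ y in 𝓝 (G.s r),
    G.tm (G.ext r (G.tm r, y)) = G.tm r ∧ G.s (G.ext r (G.tm r, y)) = y :=
  ((tendsto_slice _ _).eventually (G.ext_sec r)).mono fun _ h =>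
    ⟨congrArg Prod.fst h, congrArg Prod.snd h⟩

/-- the derivative of a nearby arrow -/
theorem D_ext (r : G.R i j) : ∀ᶠ z in 𝓝 (G.tm r, G.s r),
    G.D (G.ext r z) = fderiv ℝ (fun y => G.t (G.ext r (z.1, y))) z.2 := by
  filter_upwards [ext_coh r, tm_ext r, s_ext r] with z h1 h2 h3
  rw [D, h3]
  refine Filter.EventuallyEq.fderiv_eq ?_
  filter_upwards [(tendsto_slice z.1 z.2).eventually h1] with y hy
  rw [loc, h2, hy]

theorem D_slice (r : G.R i j) : ∀ᶠ y in 𝓝 (G.s r),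
    G.D (G.ext r (G.tm r, y)) = fderiv ℝ (G.loc r) y :=
  (tendsto_slice _ _).eventually (D_ext r)

theorem ext_one {x : G.V i} (h : x ∈ G.U i) :
    ∀ᶠ y in 𝓝 x, ∃ hy : y ∈ G.U i, G.ext (G.one x h) (0, y) = G.one y hy := by
  have h1 := ext_eq (z₀ := (⟨x, h⟩ : G.U i)) (G.cont_one i).continuousAt
  rw [nhds_subtype_eq_comap, eventually_comap] at h1
  filter_upwards [h1, (G.U_open i).mem_nhds h] with y hy hU
  have := hy ⟨y, hU⟩ rfl
  simp only [G.tm_one, G.s_one] at this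
  exact ⟨hU, this⟩

theorem loc_one {x : G.V i} (h : x ∈ G.U i) : G.loc (G.one x h) =ᶠ[𝓝 x] id := by
  filter_upwards [ext_one h] with y ⟨hy, e⟩
  rw [loc, G.tm_one, e, G.t_one, id]

theorem D_one {x : G.V i} (h : x ∈ G.U i) : G.D (G.one x h) = ContinuousLinearMap.id ℝ _ := by
  rw [D, G.s_one, (loc_one h).fderiv_eq, fderiv_id]

/-- products of continuous families of arrows are continuous -/
theorem tendsto_mul {Z : Type*} {l : Filter Z} {f : Z → G.R i j} {f' : Z → G.R j k}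
    {r : G.R i j} {r' : G.R j k} (h : G.t r = G.s r') (hf : Tendsto f l (𝓝 r))
    (hf' : Tendsto f' l (𝓝 r')) {F : Z → G.R i k}
    (hF : ∀ᶠ z in l, ∃ hz, F z = G.mul (f z) (f' z) hz) : Tendsto F l (𝓝 (G.mul r r' h)) := by
  classical
  let q : Z → {p : G.R i j × G.R j k // G.t p.1 = G.s p.2} := fun z =>
    if hz : G.t (f z) = G.s (f' z) then ⟨(f z, f' z), hz⟩ else ⟨(r, r'), h⟩
  have hq : Tendsto q l (𝓝 ⟨(r, r'), h⟩) := by
    rw [tendsto_subtype_rng]
    refine (hf.prodMk_nhds hf').congr' ?_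
    filter_upwards [hF] with z ⟨hz, _⟩
    simp only [q, dif_pos hz]
  refine (((G.cont_mul i j k).tendsto _).comp hq).congr' ?_
  filter_upwards [hF] with z ⟨hz, e⟩
  simp only [q, dif_pos hz, Function.comp, e]

/-- the local section through a product -/
theorem ext_mul (r : G.R i j) (r' : G.R j k) (h : G.t r = G.s r') :
    ∀ᶠ w : ℝ × ℝ × G.V i in 𝓝 (G.tm r, G.tm r', G.s r), ∃ hw,
      G.ext (G.mul r r' h) (w.1 + w.2.1, w.2.2) =
        G.mul (G.ext r (w.1, w.2.2)) (G.ext r' (w.2.1, G.t (G.ext r (w.1, w.2.2)))) hw := by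
  classical
  have t1 : Tendsto (fun w : ℝ × ℝ × G.V i => (w.1, w.2.2)) (𝓝 (G.tm r, G.tm r', G.s r))
      (𝓝 (G.tm r, G.s r)) := (by fun_prop : Continuous fun w : ℝ × ℝ × G.V i => (w.1, w.2.2)).tendsto _
  have a1 := (tendsto_ext r).comp t1
  have t2 : Tendsto (fun w : ℝ × ℝ × G.V i => (w.2.1, G.t (G.ext r (w.1, w.2.2))))
      (𝓝 (G.tm r, G.tm r', G.s r)) (𝓝 (G.tm r', G.s r')) := by
    refine Tendsto.prodMk_nhds
      ((by fun_prop : Continuous fun w : ℝ × ℝ × G.V i => w.2.1).tendsto _) ?_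
    rw [← h]
    exact ((G.cont_t i j).tendsto r).comp a1
  have a2 := (tendsto_ext r').comp t2
  have e1 := t1.eventually (G.ext_sec r)
  have e2 := t2.eventually (G.ext_sec r')
  let F : ℝ × ℝ × G.V i → G.R i k := fun w =>
    if hw : G.t (G.ext r (w.1, w.2.2)) = G.s (G.ext r' (w.2.1, G.t (G.ext r (w.1, w.2.2)))) then
      G.mul _ _ hw else G.mul r r' h
  have hF : ∀ᶠ w in 𝓝 (G.tm r, G.tm r', G.s r), ∃ hw, F w =
      G.mul (G.ext r (w.1, w.2.2)) (G.ext r' (w.2.1, G.t (G.ext r (w.1, w.2.2)))) hw := by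
    filter_upwards [e2] with w hw
    have hw' := (congrArg Prod.snd hw).symm
    exact ⟨hw', dif_pos hw'⟩
  have a3 := tendsto_mul h a1 a2 hF
  filter_upwards [a3.eventually (G.ext_inj _), hF, e1, e2] with w h1 ⟨hw, h2⟩ h3 h4
  refine ⟨hw, ?_⟩
  rw [← h2, ← h1, h2, G.tm_mul, G.s_mul]
  have b1 := congrArg Prod.fst h3
  have b2 := congrArg Prod.snd h3
  have b3 := congrArg Prod.fst h4
  simp only at b1 b2 b3
  rw [b1, b2, b3]

theorem loc_mul (r : G.R i j) (r' : G.R j k) (h : G.t r = G.s r') :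
    G.loc (G.mul r r' h) =ᶠ[𝓝 (G.s r)] G.loc r' ∘ G.loc r := by
  have t1 : Tendsto (fun y : G.V i => (G.tm r, G.tm r', y)) (𝓝 (G.s r))
      (𝓝 (G.tm r, G.tm r', G.s r)) :=
    (by fun_prop : Continuous fun y : G.V i => (G.tm r, G.tm r', y)).tendsto _
  filter_upwards [t1.eventually (ext_mul r r' h)] with y ⟨hw, e⟩
  simp only [loc, Function.comp, G.tm_mul]
  rw [e, G.t_mul]

theorem D_mul (r : G.R i j) (r' : G.R j k) (h : G.t r = G.s r') :
    G.D (G.mul r r' h) = (G.D r').comp (G.D r) := by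
  rw [D, G.s_mul, (loc_mul r r' h).fderiv_eq, fderiv_comp _ _ (loc_diff r), loc_self, h]
  · rfl
  · rw [loc_self, h]; exact loc_diff r'

theorem D_inv_comp (r : G.R i j) :
    (G.D (G.inv r)).comp (G.D r) = ContinuousLinearMap.id ℝ _ := by
  rw [← D_mul r (G.inv r) (G.s_inv r).symm, G.mul_inv, D_one]

theorem D_comp_inv (r : G.R i j) :
    (G.D r).comp (G.D (G.inv r)) = ContinuousLinearMap.id ℝ _ := by
  rw [← D_mul (G.inv r) r (G.t_inv r), G.inv_mul, D_one]

theorem ext_sh (r : G.R i j) : ∀ᶠ z in 𝓝 (G.tm r, G.s r),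
    G.ext (G.sh r) (z.1 + 1, z.2) = G.sh (G.ext r z) := by
  have a := ((G.cont_sh i j).tendsto r).comp (tendsto_ext r)
  filter_upwards [a.eventually (G.ext_inj _), tm_ext r, s_ext r] with z h1 h2 h3
  simp only [Function.comp, G.tm_sh, G.s_sh, h2, h3] at h1
  exact h1

theorem loc_sh (r : G.R i j) : G.loc (G.sh r) =ᶠ[𝓝 (G.s r)] G.loc r := by
  filter_upwards [(tendsto_slice _ _).eventually (ext_sh r)] with y hy
  rw [loc, G.tm_sh, hy, G.t_sh, loc]

theorem D_sh (r : G.R i j) : G.D (G.sh r) = G.D r := by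
  rw [D, G.s_sh, (loc_sh r).fderiv_eq, D]

theorem Inv.iff {K : G.Fam} (h : Inv K) (r : G.R i j) : G.s r ∈ K i ↔ G.t r ∈ K j :=
  ⟨h i j r, fun ht => by
    have := h j i (G.inv r) (by rwa [G.s_inv])
    rwa [G.t_inv] at this⟩

theorem mul_congr {r₁ r₂ : G.R i j} {r₁' r₂' : G.R j k} (e : r₁ = r₂) (e' : r₁' = r₂') (h h') :
    G.mul r₁ r₁' h = G.mul r₂ r₂' h' := by subst e e'; rfl

theorem one_congr {x y : G.V i} (e : x = y) (h h') : G.one x h = G.one y h' := by subst e; rfl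

theorem mul_left_cancel {r : G.R i j} {a b : G.R j k} {h h'} (e : G.mul r a h = G.mul r b h') :
    a = b := by
  have key : ∀ (c : G.R j k) (hc : G.t r = G.s c) (h₁),
      G.mul (G.inv r) (G.mul r c hc) h₁ = c := fun c hc h₁ => by
    rw [← G.mul_assoc (G.inv r) r c (G.t_inv r) hc (by rw [G.t_mul, hc]) h₁]
    rw [mul_congr ((G.inv_mul r _).trans (one_congr hc _ (G.s_mem c))) rfl _ (G.t_one _ _),
      G.one_mul]
  rw [← key a h (by rw [G.t_inv, G.s_mul]), ← key b h' (by rw [G.t_inv, G.s_mul])]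
  exact mul_congr rfl e _ _

theorem inv_inv (r : G.R i j) : G.inv (G.inv r) = r := by
  refine mul_left_cancel (r := G.inv r) (h := (G.s_inv _).symm) (h' := G.t_inv r) ?_
  rw [G.mul_inv, G.inv_mul]
  exact one_congr (G.s_inv r) _ _

end Sys

namespace Mor

variable {G' G : Sys} (Φ : Mor G' G) {i i' : G'.ι}

theorem m_ext (r : G'.R i i') : ∀ᶠ z in 𝓝 (G'.tm r, G'.s r),
    Φ.m (G'.ext r z) = G.ext (Φ.m r) (z.1, Φ.f i z.2) := by
  have a := ((Φ.cont_m i i').tendsto r).comp (Sys.tendsto_ext r)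
  filter_upwards [a.eventually (G.ext_inj _), Sys.tm_ext r, Sys.s_ext r] with z h1 h2 h3
  simp only [Function.comp, Φ.tm_m, Φ.s_m, h2, h3] at h1
  exact h1.symm

theorem loc_comm (r : G'.R i i') :
    Φ.f i' ∘ G'.loc r =ᶠ[𝓝 (G'.s r)] G.loc (Φ.m r) ∘ Φ.f i := by
  filter_upwards [(Sys.tendsto_slice _ _).eventually (Φ.m_ext r)] with y hy
  simp only [Function.comp, Sys.loc, Φ.tm_m]
  rw [← hy, Φ.t_m]

theorem f_diff {x : G'.V i} (h : x ∈ G'.U i) : DifferentiableAt ℝ (Φ.f i) x :=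
  (Φ.f_sm i x h).differentiableAt (by simp)

theorem D_comm (r : G'.R i i') :
    (fderiv ℝ (Φ.f i') (G'.t r)).comp (G'.D r) =
      (G.D (Φ.m r)).comp (fderiv ℝ (Φ.f i) (G'.s r)) := by
  have h := (Φ.loc_comm r).fderiv_eq (𝕜 := ℝ)
  rw [fderiv_comp _ (by rw [Sys.loc_self]; exact Φ.f_diff (G'.t_mem r)) (Sys.loc_diff r),
    fderiv_comp _ (by rw [← Φ.s_m]; exact Sys.loc_diff _) (Φ.f_diff (G'.s_mem r)),
    Sys.loc_self, ← Φ.s_m] at h
  exact h

end Mor

end Crest.Agent.X262.Gw
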