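import Crest.Agent.X262.Gw.Bas

/-!
# Row 262, GW-CORE A (helper10): constructions

`Sys.prod`, `Hol.prod`, `Sys.lin` (a linear circle action on a vector space),
`Mor.fst`, `Mor.snd`, `Mor.comp`, `Mor.pair`, `Mor.toLin`.
-/

set_option autoImplicit false

open scoped ContDiff Topology Kronecker
open Filter Set Matrix
open Crest.Agent.R208.F Crest.Agent.R208.CW

noncomputable section

namespace Crest.Agent.X262.Gw

namespace Sys

open Classical in
/-- local section in the product -/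
def prodExt {G H : Sys} {i j : G.ι × H.ι}
    (r : {p : G.R i.1 j.1 × H.R i.2 j.2 // G.tm p.1 = H.tm p.2}) (z : ℝ × G.V i.1 × H.V i.2) :
    {p : G.R i.1 j.1 × H.R i.2 j.2 // G.tm p.1 = H.tm p.2} :=
  if h : G.tm (G.ext r.1.1 (z.1, z.2.1)) = H.tm (H.ext r.1.2 (z.1, z.2.2)) then ⟨(_, _), h⟩ else r

theorem prod_t1 {G H : Sys} {i j : G.ι × H.ι}
    (r : {p : G.R i.1 j.1 × H.R i.2 j.2 // G.tm p.1 = H.tm p.2}) :
    Tendsto (fun z : ℝ × G.V i.1 × H.V i.2 => (z.1, z.2.1)) (𝓝 (G.tm r.1.1, G.s r.1.1, H.s r.1.2))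
      (𝓝 (G.tm r.1.1, G.s r.1.1)) :=
  (by fun_prop : Continuous fun z : ℝ × G.V i.1 × H.V i.2 => (z.1, z.2.1)).tendsto _

theorem prod_t2 {G H : Sys} {i j : G.ι × H.ι}
    (r : {p : G.R i.1 j.1 × H.R i.2 j.2 // G.tm p.1 = H.tm p.2}) :
    Tendsto (fun z : ℝ × G.V i.1 × H.V i.2 => (z.1, z.2.2)) (𝓝 (G.tm r.1.1, G.s r.1.1, H.s r.1.2))
      (𝓝 (H.tm r.1.2, H.s r.1.2)) := by
  rw [← r.2]
  exact (by fun_prop : Continuous fun z : ℝ × G.V i.1 × H.V i.2 => (z.1, z.2.2)).tendsto _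

theorem prodExt_eq {G H : Sys} {i j : G.ι × H.ι}
    (r : {p : G.R i.1 j.1 × H.R i.2 j.2 // G.tm p.1 = H.tm p.2}) :
    ∀ᶠ z in 𝓝 (G.tm r.1.1, G.s r.1.1, H.s r.1.2),
      (prodExt r z).1 = (G.ext r.1.1 (z.1, z.2.1), H.ext r.1.2 (z.1, z.2.2)) := by
  filter_upwards [(prod_t1 r).eventually (tm_ext _), (prod_t2 r).eventually (tm_ext _)] with z h1 h2
  rw [prodExt, dif_pos (h1.trans h2.symm)]

/-- product of two systems (diagonal circle action) -/
@[reducible] def prod (G H : Sys) : Sys where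
  ι := G.ι × H.ι
  V i := G.V i.1 × H.V i.2
  U i := G.U i.1 ×ˢ H.U i.2
  U_open i := (G.U_open _).prod (H.U_open _)
  R i j := {p : G.R i.1 j.1 × H.R i.2 j.2 // G.tm p.1 = H.tm p.2}
  tm r := G.tm r.1.1
  s r := (G.s r.1.1, H.s r.1.2)
  t r := (G.t r.1.1, H.t r.1.2)
  s_mem r := ⟨G.s_mem _, H.s_mem _⟩
  t_mem r := ⟨G.t_mem _, H.t_mem _⟩
  one x h := ⟨(G.one x.1 h.1, H.one x.2 h.2), by rw [G.tm_one, H.tm_one]⟩
  inv r := ⟨(G.inv r.1.1, H.inv r.1.2), by rw [G.tm_inv, H.tm_inv, r.2]⟩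
  mul r r' h := ⟨(G.mul r.1.1 r'.1.1 (congrArg Prod.fst h), H.mul r.1.2 r'.1.2
    (congrArg Prod.snd h)), by rw [G.tm_mul, H.tm_mul, r.2, r'.2]⟩
  sh := (G.sh.prodCongr H.sh).subtypeEquiv fun p => by simp [G.tm_sh, H.tm_sh]
  ext := prodExt
  tm_one _ _ := G.tm_one _ _
  s_one _ _ := Prod.ext (G.s_one _ _) (H.s_one _ _)
  t_one _ _ := Prod.ext (G.t_one _ _) (H.t_one _ _)
  tm_inv _ := G.tm_inv _
  s_inv _ := Prod.ext (G.s_inv _) (H.s_inv _)
  t_inv _ := Prod.ext (G.t_inv _) (H.t_inv _)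
  tm_mul _ _ _ := G.tm_mul _ _ _
  s_mul _ _ _ := Prod.ext (G.s_mul _ _ _) (H.s_mul _ _ _)
  t_mul _ _ _ := Prod.ext (G.t_mul _ _ _) (H.t_mul _ _ _)
  one_mul _ _ _ := Subtype.ext (Prod.ext (G.one_mul _ _ _) (H.one_mul _ _ _))
  mul_one _ _ _ := Subtype.ext (Prod.ext (G.mul_one _ _ _) (H.mul_one _ _ _))
  mul_inv _ _ := Subtype.ext (Prod.ext (G.mul_inv _ _) (H.mul_inv _ _))
  inv_mul _ _ := Subtype.ext (Prod.ext (G.inv_mul _ _) (H.inv_mul _ _))
  mul_assoc _ _ _ _ _ _ _ := Subtype.ext (Prod.ext (G.mul_assoc _ _ _ _ _ _ _)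
    (H.mul_assoc _ _ _ _ _ _ _))
  tm_sh _ := G.tm_sh _
  s_sh _ := Prod.ext (G.s_sh _) (H.s_sh _)
  t_sh _ := Prod.ext (G.t_sh _) (H.t_sh _)
  sh_mul _ _ h _ := Subtype.ext (Prod.ext (G.sh_mul _ _ (congrArg Prod.fst h) _)
    (H.sh_mul _ _ (congrArg Prod.snd h) _))
  mul_sh _ _ h _ := Subtype.ext (Prod.ext (G.mul_sh _ _ (congrArg Prod.fst h) _)
    (H.mul_sh _ _ (congrArg Prod.snd h) _))
  cont_tm _ _ := (G.cont_tm _ _).comp (continuous_fst.comp continuous_subtype_val)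
  cont_s _ _ := ((G.cont_s _ _).comp (continuous_fst.comp continuous_subtype_val)).prodMk
    ((H.cont_s _ _).comp (continuous_snd.comp continuous_subtype_val))
  cont_t _ _ := ((G.cont_t _ _).comp (continuous_fst.comp continuous_subtype_val)).prodMk
    ((H.cont_t _ _).comp (continuous_snd.comp continuous_subtype_val))
  cont_one i := by
    have g1 : Continuous fun x : (G.U i.1 ×ˢ H.U i.2 : Set _) => (⟨x.1.1, x.2.1⟩ : G.U i.1) := by
      fun_prop
    have g2 : Continuous fun x : (G.U i.1 ×ˢ H.U i.2 : Set _) => (⟨x.1.2, x.2.2⟩ : H.U i.2) := by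
      fun_prop
    have h1 := (G.cont_one i.1).comp g1
    have h2 := (H.cont_one i.2).comp g2
    exact (h1.prodMk h2).subtype_mk _
  cont_inv _ _ := Continuous.subtype_mk (Continuous.prodMk
    ((G.cont_inv _ _).comp (continuous_fst.comp continuous_subtype_val))
    ((H.cont_inv _ _).comp (continuous_snd.comp continuous_subtype_val))) _
  cont_mul i j k := by
    let P := {p : {p : G.R i.1 j.1 × H.R i.2 j.2 // G.tm p.1 = H.tm p.2} ×
      {p : G.R j.1 k.1 × H.R j.2 k.2 // G.tm p.1 = H.tm p.2} //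
        (G.t p.1.1.1, H.t p.1.1.2) = (G.s p.2.1.1, H.s p.2.1.2)}
    have g1 : Continuous fun p : P => (⟨(p.1.1.1.1, p.1.2.1.1), congrArg Prod.fst p.2⟩ :
        {p : G.R i.1 j.1 × G.R j.1 k.1 // G.t p.1 = G.s p.2}) := by fun_prop
    have g2 : Continuous fun p : P => (⟨(p.1.1.1.2, p.1.2.1.2), congrArg Prod.snd p.2⟩ :
        {p : H.R i.2 j.2 × H.R j.2 k.2 // H.t p.1 = H.s p.2}) := by fun_prop
    have h1 := (G.cont_mul i.1 j.1 k.1).comp g1
    have h2 := (H.cont_mul i.2 j.2 k.2).comp g2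
    exact (h1.prodMk h2).subtype_mk _
  cont_sh _ _ := Continuous.subtype_mk (Continuous.prodMk
    ((G.cont_sh _ _).comp (continuous_fst.comp continuous_subtype_val))
    ((H.cont_sh _ _).comp (continuous_snd.comp continuous_subtype_val))) _
  cont_sh' _ _ := Continuous.subtype_mk (Continuous.prodMk
    ((G.cont_sh' _ _).comp (continuous_fst.comp continuous_subtype_val))
    ((H.cont_sh' _ _).comp (continuous_snd.comp continuous_subtype_val))) _
  ext_self r := Subtype.ext (by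
    rw [(prodExt_eq r).self_of_nhds]
    exact Prod.ext (G.ext_self _) (by simp only [r.2]; exact H.ext_self _))
  ext_cont r := by
    have e : prodExt r (G.tm r.1.1, G.s r.1.1, H.s r.1.2) = r := Subtype.ext (by
      rw [(prodExt_eq r).self_of_nhds]
      exact Prod.ext (G.ext_self _) (by simp only [r.2]; exact H.ext_self _))
    rw [ContinuousAt, e, tendsto_subtype_rng]
    exact (((tendsto_ext _).comp (prod_t1 r)).prodMk_nhds
      ((tendsto_ext _).comp (prod_t2 r))).congr' ((prodExt_eq r).mono fun z hz => hz.symm)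
  ext_sec r := by
    filter_upwards [prodExt_eq r, (prod_t1 r).eventually (tm_ext _),
      (prod_t1 r).eventually (s_ext _), (prod_t2 r).eventually (s_ext _)] with z h h1 h2 h3
    simp only [h] at h1 h2 h3 ⊢
    rw [h1, h2, h3]
  ext_inj {i j} r := by
    have a1 : Tendsto (fun r' : {p : G.R i.1 j.1 × H.R i.2 j.2 // G.tm p.1 = H.tm p.2} => r'.1.1)
      (𝓝 r) (𝓝 r.1.1) := (continuous_fst.comp continuous_subtype_val).tendsto r
    have a2 : Tendsto (fun r' : {p : G.R i.1 j.1 × H.R i.2 j.2 // G.tm p.1 = H.tm p.2} => r'.1.2)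
      (𝓝 r) (𝓝 r.1.2) := (continuous_snd.comp continuous_subtype_val).tendsto r
    filter_upwards [a1.eventually (G.ext_inj _), a2.eventually (H.ext_inj _)] with r' h1 h2
    rw [← r'.2] at h2
    refine Subtype.ext ?_
    rw [prodExt, dif_pos (by simp only [h1, h2]; exact r'.2)]
    exact Prod.ext h1 h2
  ext_smooth r := by
    have h2 := H.ext_smooth r.1.2
    rw [← r.2] at h2
    refine ContDiffAt.congr_of_eventuallyEq (ContDiffAt.prodMk
      ((G.ext_smooth r.1.1).comp _ (f := fun z : ℝ × _ × _ => (z.1, z.2.1)) (by fun_prop))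
      (h2.comp _ (f := fun z : ℝ × _ × _ => (z.1, z.2.2)) (by fun_prop))) ?_
    filter_upwards [prodExt_eq r] with z hz
    simp only [hz, Function.comp]
  proper i j A B hA hB hAU hBU := by
    have h1 := G.proper i.1 j.1 ((fun z : ℝ × _ × _ => (z.1, z.2.1)) '' A) (Prod.fst '' B)
      (hA.image (by fun_prop)) (hB.image continuous_fst)
      (by rintro _ ⟨z, hz, rfl⟩; exact (hAU z hz).1) (by rintro _ ⟨z, hz, rfl⟩; exact (hBU hz).1)
    have h2 := H.proper i.2 j.2 ((fun z : ℝ × _ × _ => (z.1, z.2.2)) '' A) (Prod.snd '' B)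
      (hA.image (by fun_prop)) (hB.image continuous_snd)
      (by rintro _ ⟨z, hz, rfl⟩; exact (hAU z hz).2) (by rintro _ ⟨z, hz, rfl⟩; exact (hBU hz).2)
    have hc : IsClosed {p : G.R i.1 j.1 × H.R i.2 j.2 | G.tm p.1 = H.tm p.2} :=
      isClosed_eq ((G.cont_tm _ _).comp continuous_fst) ((H.cont_tm _ _).comp continuous_snd)
    refine (hc.isClosedEmbedding_subtypeVal.isCompact_preimage (h1.prod h2)).of_isClosed_subset
      ((hA.isClosed.preimage ?_).inter (hB.isClosed.preimage ?_)) ?_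
    · exact ((G.cont_tm _ _).comp (continuous_fst.comp continuous_subtype_val)).prodMk
        (((G.cont_s _ _).comp (continuous_fst.comp continuous_subtype_val)).prodMk
        ((H.cont_s _ _).comp (continuous_snd.comp continuous_subtype_val)))
    · exact ((G.cont_t _ _).comp (continuous_fst.comp continuous_subtype_val)).prodMk
        ((H.cont_t _ _).comp (continuous_snd.comp continuous_subtype_val))
    · rintro r ⟨h, h'⟩
      exact ⟨⟨⟨_, h, rfl⟩, ⟨_, h', rfl⟩⟩, ⟨_, h, Prod.ext r.2 rfl⟩, ⟨_, h', rfl⟩⟩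

theorem prod_ext {G H : Sys} {i j : (G.prod H).ι} (r : (G.prod H).R i j) :
    ∀ᶠ z in 𝓝 ((G.prod H).tm r, (G.prod H).s r), ((G.prod H).ext r z).1 =
      (G.ext r.1.1 (z.1, z.2.1), H.ext r.1.2 (z.1, z.2.2)) := prodExt_eq r

theorem prod_loc {G H : Sys} {i j : (G.prod H).ι} (r : (G.prod H).R i j) :
    (G.prod H).loc r =ᶠ[𝓝 ((G.prod H).s r)] Prod.map (G.loc r.1.1) (H.loc r.1.2) := by
  filter_upwards [(tendsto_slice _ _).eventually (prod_ext r)] with y hy
  change (G.t ((G.prod H).ext r _).1.1, H.t ((G.prod H).ext r _).1.2) = _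
  rw [hy]
  exact Prod.ext rfl (by simp only [loc, Prod.map, ← r.2])

theorem prod_D {G H : Sys} {i j : (G.prod H).ι} (r : (G.prod H).R i j) :
    (G.prod H).D r = (G.D r.1.1).prodMap (H.D r.1.2) := by
  rw [D, (prod_loc r).fderiv_eq]
  exact ((loc_diff r.1.1).hasFDerivAt.prodMap ((G.prod H).s r) (loc_diff r.1.2).hasFDerivAt).fderiv

/-- product of complex structures -/
def Hol.prod {G H : Sys} (h : G.Hol) (h' : H.Hol) : (G.prod H).Hol :=
  letI := h.cV; letI := h'.cV; letI := h.tV; letI := h'.tV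
  { cV := fun i => inferInstanceAs (NormedSpace ℂ (G.V i.1 × H.V i.2))
    tV := fun i => inferInstanceAs (IsScalarTower ℝ ℂ (G.V i.1 × H.V i.2))
    hol := fun r v => by
      rw [prod_D]
      exact Prod.ext (h.hol r.1.1 v.1) (h'.hol r.1.2 v.2) }

/-- product of families of sets -/
def Fam.prod {G H : Sys} (K : G.Fam) (L : H.Fam) : (G.prod H).Fam := fun i => K i.1 ×ˢ L i.2

/-- A linear circle action on a vector space. -/
structure LinAct (E : Type) [NormedAddCommGroup E] [NormedSpace ℝ E] where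
  a : ℝ → E →L[ℝ] E
  zero : ∀ x, a 0 x = x
  add : ∀ θ θ' x, a (θ + θ') x = a θ' (a θ x)
  per : ∀ θ x, a (θ + 1) x = a θ x
  sm : ContDiff ℝ ∞ a

/-- the trivial action -/
def LinAct.triv (E : Type) [NormedAddCommGroup E] [NormedSpace ℝ E] : LinAct E :=
  ⟨fun _ => ContinuousLinearMap.id ℝ E, fun _ => rfl, fun _ _ _ => rfl, fun _ _ => rfl,
    contDiff_const⟩

theorem LinAct.sm' {E : Type} [NormedAddCommGroup E] [NormedSpace ℝ E] (A : LinAct E) :
    ContDiff ℝ ∞ fun z : ℝ × E => A.a z.1 z.2 :=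
  (A.sm.comp contDiff_fst).clm_apply contDiff_snd

/-- the system of a linear circle action: one chart -/
@[reducible] def lin {E : Type} [NormedAddCommGroup E] [NormedSpace ℝ E] [FiniteDimensional ℝ E]
    (A : LinAct E) : Sys where
  ι := Unit
  V _ := E
  U _ := univ
  U_open _ := isOpen_univ
  R _ _ := ℝ × E
  tm r := r.1
  s r := r.2
  t r := A.a r.1 r.2
  s_mem _ := mem_univ _
  t_mem _ := mem_univ _
  one x _ := (0, x)
  inv r := (-r.1, A.a r.1 r.2)
  mul r r' _ := (r.1 + r'.1, r.2)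
  sh := (Equiv.addRight 1).prodCongr (Equiv.refl _)
  ext _ z := z
  tm_one _ _ := rfl
  s_one _ _ := rfl
  t_one _ _ := A.zero _
  tm_inv _ := rfl
  s_inv _ := rfl
  t_inv r := by rw [← A.add, add_neg_cancel, A.zero]
  tm_mul _ _ _ := rfl
  s_mul _ _ _ := rfl
  t_mul r r' h := by rw [A.add, h]
  one_mul _ _ _ := Prod.ext (zero_add _) rfl
  mul_one _ _ _ := Prod.ext (add_zero _) rfl
  mul_inv _ _ := Prod.ext (add_neg_cancel _) rfl
  inv_mul _ _ := Prod.ext (neg_add_cancel _) rfl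
  mul_assoc _ _ _ _ _ _ _ := Prod.ext (add_assoc _ _ _) rfl
  tm_sh _ := rfl
  s_sh _ := rfl
  t_sh _ := A.per _ _
  sh_mul _ _ _ _ := Prod.ext (add_right_comm _ _ _) rfl
  mul_sh _ _ _ _ := Prod.ext (add_assoc _ _ _).symm rfl
  cont_tm _ _ := continuous_fst
  cont_s _ _ := continuous_snd
  cont_t _ _ := A.sm'.continuous
  cont_one _ := by fun_prop
  cont_inv _ _ := continuous_fst.neg.prodMk A.sm'.continuous
  cont_mul _ _ _ := by fun_prop
  cont_sh _ _ := (continuous_fst.add continuous_const).prodMk continuous_snd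
  cont_sh' _ _ := (continuous_fst.add continuous_const).prodMk continuous_snd
  ext_self _ := rfl
  ext_cont _ := continuousAt_id
  ext_sec _ := Eventually.of_forall fun _ => rfl
  ext_inj _ := Eventually.of_forall fun _ => rfl
  ext_smooth _ := A.sm'.contDiffAt
  proper _ _ _ _ hA hB _ _ := hA.inter_right (hB.isClosed.preimage A.sm'.continuous)

end Sys

namespace Mor

/-- first projection -/
@[reducible] def fst (G H : Sys) : Mor (G.prod H) G where
  j i := i.1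
  f _ := Prod.fst
  m r := r.1.1
  f_sm _ _ _ := contDiffAt_fst
  f_mem _ _ h := h.1
  tm_m _ := rfl
  s_m _ := rfl
  t_m _ := rfl
  m_one _ _ := rfl
  m_mul _ _ _ _ := rfl
  m_sh _ := rfl
  cont_m _ _ := continuous_fst.comp continuous_subtype_val

/-- second projection -/
@[reducible] def snd (G H : Sys) : Mor (G.prod H) H where
  j i := i.2
  f _ := Prod.snd
  m r := r.1.2
  f_sm _ _ _ := contDiffAt_snd
  f_mem _ _ h := h.2
  tm_m r := r.2.symm
  s_m _ := rfl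
  t_m _ := rfl
  m_one _ _ := rfl
  m_mul _ _ _ _ := rfl
  m_sh _ := rfl
  cont_m _ _ := continuous_snd.comp continuous_subtype_val

/-- composition -/
@[reducible] def comp {G'' G' G : Sys} (Φ : Mor G' G) (Ψ : Mor G'' G') : Mor G'' G where
  j i := Φ.j (Ψ.j i)
  f i := Φ.f (Ψ.j i) ∘ Ψ.f i
  m r := Φ.m (Ψ.m r)
  f_sm i x h := (Φ.f_sm _ _ (Ψ.f_mem i x h)).comp x (Ψ.f_sm i x h)
  f_mem i x h := Φ.f_mem _ _ (Ψ.f_mem i x h)
  tm_m r := by rw [Φ.tm_m, Ψ.tm_m]
  s_m r := by rw [Φ.s_m, Ψ.s_m]; rfl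
  t_m r := by rw [Φ.t_m, Ψ.t_m]; rfl
  m_one x h := by rw [Ψ.m_one, Φ.m_one]; rfl
  m_mul r r' h h' := by
    rw [Ψ.m_mul r r' h (by rw [Ψ.t_m, Ψ.s_m, h]), Φ.m_mul _ _ _ h']
  m_sh r := by rw [Ψ.m_sh, Φ.m_sh]
  cont_m _ _ := (Φ.cont_m _ _).comp (Ψ.cont_m _ _)

/-- pairing -/
@[reducible] def pair {G' G H : Sys} (Φ : Mor G' G) (Ψ : Mor G' H) : Mor G' (G.prod H) where
  j i := (Φ.j i, Ψ.j i)
  f i x := (Φ.f i x, Ψ.f i x)
  m r := ⟨(Φ.m r, Ψ.m r), by rw [Φ.tm_m, Ψ.tm_m]⟩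
  f_sm i x h := (Φ.f_sm i x h).prodMk (Ψ.f_sm i x h)
  f_mem i x h := ⟨Φ.f_mem i x h, Ψ.f_mem i x h⟩
  tm_m r := Φ.tm_m r
  s_m r := Prod.ext (Φ.s_m r) (Ψ.s_m r)
  t_m r := Prod.ext (Φ.t_m r) (Ψ.t_m r)
  m_one x h := Subtype.ext (Prod.ext (Φ.m_one x h) (Ψ.m_one x h))
  m_mul r r' h _ := Subtype.ext (Prod.ext (Φ.m_mul r r' h _) (Ψ.m_mul r r' h _))
  m_sh r := Subtype.ext (Prod.ext (Φ.m_sh r) (Ψ.m_sh r))
  cont_m _ _ := ((Φ.cont_m _ _).prodMk (Ψ.cont_m _ _)).subtype_mk _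

/-- a smooth equivariant map to a vector space -/
@[reducible] def toLin {G : Sys} {E : Type} [NormedAddCommGroup E] [NormedSpace ℝ E]
    [FiniteDimensional ℝ E] (A : Sys.LinAct E) (f : ∀ i, G.V i → E)
    (hf : ∀ i, ∀ x ∈ G.U i, ContDiffAt ℝ ∞ (f i) x)
    (he : ∀ i j (r : G.R i j), f j (G.t r) = A.a (G.tm r) (f i (G.s r))) : Mor G (Sys.lin A) where
  j _ := ()
  f := f
  m {i _} r := (G.tm r, f i (G.s r))
  f_sm := hf
  f_mem _ _ _ := mem_univ _
  tm_m _ := rfl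
  s_m _ := rfl
  t_m r := (he _ _ r).symm
  m_one x h := by simp only [G.tm_one, G.s_one]
  m_mul r r' h _ := by simp only [G.tm_mul, G.s_mul]
  m_sh r := by simp only [G.tm_sh, G.s_sh]; rfl
  cont_m i j := (G.cont_tm i j).prodMk (continuous_iff_continuousAt.2 fun r =>
    ContinuousAt.comp (hf i _ (G.s_mem r)).continuousAt (G.cont_s i j).continuousAt)

end Mor

end Crest.Agent.X262.Gw
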