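import Crest.Agent.X262.Gw.Cst

/-!
# Row 262, GW-CORE A (helper10): constructions of bundles

`Bun.pull`, `Bun.sum`, `Bun.ten`, `Sub.pull`, `Sub.sum`, `Sub.ten`, `Sub.mono`, `Sub.zero`.
-/

set_option autoImplicit false

open scoped ContDiff Topology Kronecker
open Filter Set Matrix
open Crest.Agent.R208.F Crest.Agent.R208.CW

noncomputable section

namespace Crest.Agent.X262.Gw

namespace Bun

variable {G' G : Sys}

/-- pull-back of a bundle -/
@[reducible] def pull (Φ : Mor G' G) (E : Bun G) : Bun G' where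
  n i := E.n (Φ.j i)
  W i := G'.U i ∩ Φ.f i ⁻¹' E.W (Φ.j i)
  W_open i := ContinuousOn.isOpen_inter_preimage
    (fun x hx => (Φ.f_sm i x hx).continuousAt.continuousWithinAt) (G'.U_open i) (E.W_open _)
  W_sub _ := inter_subset_left
  p i x := E.p _ (Φ.f i x)
  g r := E.g (Φ.m r)
  p_sm i x h a b := (E.p_sm _ _ h.2 a b).comp x (Φ.f_sm i x h.1)
  p_idem _ _ h := E.p_idem _ _ h.2
  g_sm {i j} r h h' a b := by
    have h1 := E.g_sm (Φ.m r) (by rw [Φ.s_m]; exact h.2) (by rw [Φ.t_m]; exact h'.2) a b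
    rw [Φ.tm_m, Φ.s_m] at h1
    have h2 : ContDiffAt ℝ ∞ (fun z : ℝ × G'.V i => (z.1, Φ.f i z.2)) (G'.tm r, G'.s r) :=
      contDiffAt_fst.prodMk (ContDiffAt.comp (G'.tm r, G'.s r) (f := Prod.snd) (Φ.f_sm i _ h.1) contDiffAt_snd)
    refine (ContDiffAt.comp (G'.tm r, G'.s r) (f := fun z : ℝ × G'.V i => (z.1, Φ.f i z.2))
      h1 h2).congr_of_eventuallyEq ?_
    filter_upwards [Φ.m_ext r] with z hz
    simp only [hz, Function.comp]
  g_p r h h' := by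
    rw [← Φ.s_m]; exact E.g_p _ (by rw [Φ.s_m]; exact h.2) (by rw [Φ.t_m]; exact h'.2)
  p_g r h h' := by
    rw [← Φ.t_m]; exact E.p_g _ (by rw [Φ.s_m]; exact h.2) (by rw [Φ.t_m]; exact h'.2)
  g_one x h h' := by rw [Φ.m_one]; exact E.g_one _ _ h'.2
  g_mul r r' h h1 h2 h3 := by
    rw [Φ.m_mul r r' h (by rw [Φ.t_m, Φ.s_m, h])]
    exact E.g_mul _ _ _ (by rw [Φ.s_m]; exact h1.2) (by rw [Φ.t_m]; exact h2.2)
      (by rw [Φ.t_m]; exact h3.2)
  g_sh r := by rw [Φ.m_sh, E.g_sh]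

/-- pull-back of a field of vectors -/
def pullV (Φ : Mor G' G) {E : Bun G} (σ : E.Vec) : (E.pull Φ).Vec := fun i x => σ _ (Φ.f i x)

theorem Sec.pull (Φ : Mor G' G) {E : Bun G} {σ : E.Vec} (h : E.Sec σ) :
    (E.pull Φ).Sec (pullV Φ σ) where
  sm i x hx a := (h.sm _ _ hx.2 a).comp x (Φ.f_sm i x hx.1)
  mem _ _ hx := h.mem _ _ hx.2
  inv i j r h1 h2 := by
    have := h.inv _ _ (Φ.m r) (by rw [Φ.s_m]; exact h1.2) (by rw [Φ.t_m]; exact h2.2)
    rwa [Φ.s_m, Φ.t_m] at this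

theorem sm_fromBlocks {Z : Type*} [NormedAddCommGroup Z] [NormedSpace ℝ Z] {n m n' m' : Type}
    {A : Z → Matrix n m ℂ} {B : Z → Matrix n' m' ℂ} {z : Z}
    (hA : ∀ a b, ContDiffAt ℝ ∞ (fun y => A y a b) z)
    (hB : ∀ a b, ContDiffAt ℝ ∞ (fun y => B y a b) z) (a : n ⊕ n') (b : m ⊕ m') :
    ContDiffAt ℝ ∞ (fun y => fromBlocks (A y) 0 0 (B y) a b) z := by
  rcases a with a | a <;> rcases b with b | b
  exacts [hA a b, contDiffAt_const, contDiffAt_const, hB a b]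

/-- direct sum -/
@[reducible] def sum (E F : Bun G) : Bun G where
  n i := E.n i ⊕ F.n i
  W i := E.W i ∩ F.W i
  W_open i := (E.W_open i).inter (F.W_open i)
  W_sub i := inter_subset_left.trans (E.W_sub i)
  p i x := fromBlocks (E.p i x) 0 0 (F.p i x)
  g r := fromBlocks (E.g r) 0 0 (F.g r)
  p_sm i x h := sm_fromBlocks (E.p_sm i x h.1) (F.p_sm i x h.2)
  p_idem i x h := by simp [fromBlocks_multiply, E.p_idem i x h.1, F.p_idem i x h.2]
  g_sm r h h' := sm_fromBlocks (E.g_sm r h.1 h'.1) (F.g_sm r h.2 h'.2)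
  g_p r h h' := by simp [fromBlocks_multiply, E.g_p r h.1 h'.1, F.g_p r h.2 h'.2]
  p_g r h h' := by simp [fromBlocks_multiply, E.p_g r h.1 h'.1, F.p_g r h.2 h'.2]
  g_one x h h' := by rw [E.g_one x h h'.1, F.g_one x h h'.2]
  g_mul r r' h h1 h2 h3 := by
    simp [fromBlocks_multiply, E.g_mul r r' h h1.1 h2.1 h3.1, F.g_mul r r' h h1.2 h2.2 h3.2]
  g_sh r := by rw [E.g_sh, F.g_sh]

/-- sum of two fields of vectors -/
def sumV {E F : Bun G} (σ : E.Vec) (τ : F.Vec) : (E.sum F).Vec :=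
  fun i x => Sum.elim (σ i x) (τ i x)

theorem blocks_mulVec {n m n' m' : Type} [Fintype m] [Fintype m'] (A : Matrix n m ℂ)
    (B : Matrix n' m' ℂ) (v : m ⊕ m' → ℂ) :
    fromBlocks A 0 0 B *ᵥ v = Sum.elim (A *ᵥ (v ∘ Sum.inl)) (B *ᵥ (v ∘ Sum.inr)) := by
  simp [fromBlocks_mulVec]

theorem Sec.sum {E F : Bun G} {σ : E.Vec} {τ : F.Vec} (h : E.Sec σ) (h' : F.Sec τ) :
    (E.sum F).Sec (sumV σ τ) where
  sm i x hx a := by
    rcases a with a | a
    exacts [h.sm i x hx.1 a, h'.sm i x hx.2 a]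
  mem i x hx := by
    rw [blocks_mulVec]
    exact congrArg₂ Sum.elim (h.mem i x hx.1) (h'.mem i x hx.2)
  inv i j r h1 h2 := by
    rw [blocks_mulVec]
    exact congrArg₂ Sum.elim (h.inv i j r h1.1 h2.1) (h'.inv i j r h1.2 h2.2)

/-- tensor product -/
@[reducible] def ten (E F : Bun G) : Bun G where
  n i := E.n i × F.n i
  W i := E.W i ∩ F.W i
  W_open i := (E.W_open i).inter (F.W_open i)
  W_sub i := inter_subset_left.trans (E.W_sub i)
  p i x := E.p i x ⊗ₖ F.p i x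
  g r := E.g r ⊗ₖ F.g r
  p_sm i x h a b := (E.p_sm i x h.1 _ _).mul (F.p_sm i x h.2 _ _)
  p_idem i x h := by rw [← mul_kronecker_mul, E.p_idem i x h.1, F.p_idem i x h.2]
  g_sm r h h' a b := (E.g_sm r h.1 h'.1 _ _).mul (F.g_sm r h.2 h'.2 _ _)
  g_p r h h' := by rw [← mul_kronecker_mul, E.g_p r h.1 h'.1, F.g_p r h.2 h'.2]
  p_g r h h' := by rw [← mul_kronecker_mul, E.p_g r h.1 h'.1, F.p_g r h.2 h'.2]
  g_one x h h' := by rw [E.g_one x h h'.1, F.g_one x h h'.2]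
  g_mul r r' h h1 h2 h3 := by
    rw [← mul_kronecker_mul, E.g_mul r r' h h1.1 h2.1 h3.1, F.g_mul r r' h h1.2 h2.2 h3.2]
  g_sh r := by rw [E.g_sh, F.g_sh]

theorem Sec.zero (E : Bun G) : E.Sec 0 where
  sm _ _ _ _ := contDiffAt_const
  mem _ _ _ := mulVec_zero _
  inv _ _ _ _ _ := mulVec_zero _

/-- tensor product of vectors -/
def tv {n m : Type} (v : n → ℂ) (w : m → ℂ) : n × m → ℂ := fun a => v a.1 * w a.2

theorem kron_tv {n m n' m' : Type} [Fintype m] [Fintype m'] (A : Matrix n m ℂ)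
    (B : Matrix n' m' ℂ) (v : m → ℂ) (w : m' → ℂ) :
    (A ⊗ₖ B) *ᵥ tv v w = tv (A *ᵥ v) (B *ᵥ w) := by
  funext a
  simp only [mulVec, dotProduct, tv, kroneckerMap_apply, Fintype.sum_prod_type,
    Finset.sum_mul_sum]
  exact Finset.sum_congr rfl fun _ _ => Finset.sum_congr rfl fun _ _ => by ring

/-- span of the tensor products -/
def tS {n m : Type} (S : Submodule ℂ (n → ℂ)) (T : Submodule ℂ (m → ℂ)) :
    Submodule ℂ (n × m → ℂ) := Submodule.span ℂ {u | ∃ v ∈ S, ∃ w ∈ T, u = tv v w}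

theorem tS_ind {n m N : Type} [AddCommGroup N] [Module ℂ N] {S : Submodule ℂ (n → ℂ)}
    {T : Submodule ℂ (m → ℂ)} (f : (n × m → ℂ) →ₗ[ℂ] N) (M : Submodule ℂ N)
    (h : ∀ v ∈ S, ∀ w ∈ T, f (tv v w) ∈ M) : ∀ u ∈ tS S T, f u ∈ M := fun _ hu =>
  (Submodule.span_le (p := M.comap f)).2 (by rintro _ ⟨v, hv, w, hw, rfl⟩; exact h v hv w hw) hu

theorem mem_tS_top {n m : Type} [Fintype n] [Fintype m] (u : n × m → ℂ) : u ∈ tS ⊤ ⊤ := by
  classical
  rw [← Finset.univ_sum_single u]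
  refine Submodule.sum_mem _ fun a _ => Submodule.subset_span
    ⟨Pi.single a.1 (u a), trivial, Pi.single a.2 1, trivial, funext fun b => ?_⟩
  by_cases h1 : b.1 = a.1 <;> by_cases h2 : b.2 = a.2 <;>
    simp [tv, Pi.single_apply, Prod.ext_iff, h1, h2]

end Bun

namespace Sub

open Bun

variable {G' G : Sys} {K : G.Fam} {E F : Bun G} {σ : E.Vec} {τ : F.Vec}

/-- pull-back of a subbundle -/
@[reducible] def pull (Φ : Mor G' G) {K' : G'.Fam} (hU : ∀ i, K' i ⊆ G'.U i) (hK : Φ.Maps K' K)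
    (S : Sub K E σ) : Sub K' (E.pull Φ) (pullV Φ σ) where
  S i x := S.S _ (Φ.f i x)
  dom i x h := ⟨hU i h, S.dom _ (hK i x h)⟩
  sec := S.sec.pull Φ
  le i x h := S.le _ _ (hK i x h)
  inv i j r h v hv := by
    have := S.inv _ _ (Φ.m r) (by rw [Φ.s_m]; exact hK i _ h) v (by rwa [Φ.s_m])
    rwa [Φ.t_m] at this
  loc i x h := by
    obtain ⟨q, h1, h2⟩ := S.loc _ _ (hK i x h)
    refine ⟨fun y => q (Φ.f i y), fun a b => (h1 a b).comp x (Φ.f_sm i x (hU i h)), ?_⟩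
    filter_upwards [(Φ.f_sm i x (hU i h)).continuousAt.eventually h2] with y hy
    exact ⟨hy.1, fun hy' => hy.2 (hK i y hy')⟩

/-- restriction to a smaller set -/
@[reducible] def mono {K' : G.Fam} (h : ∀ i, K' i ⊆ K i) (S : Sub K E σ) : Sub K' E σ where
  S := S.S
  dom i := (h i).trans (S.dom i)
  sec := S.sec
  le i x hx := S.le i x (h i hx)
  inv i j r hx := S.inv i j r (h i hx)
  loc i x hx := by
    obtain ⟨q, h1, h2⟩ := S.loc i x (h i hx)
    exact ⟨q, h1, h2.mono fun y hy => ⟨hy.1, fun hy' => hy.2 (h i hy')⟩⟩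

/-- forget the section -/
@[reducible] def zero (S : Sub K E σ) : Sub K E 0 where
  S := S.S
  dom := S.dom
  sec := Sec.zero E
  le := S.le
  inv := S.inv
  loc i x hx := by
    obtain ⟨q, h1, h2⟩ := S.loc i x hx
    exact ⟨q, h1, h2.mono fun y hy => ⟨mulVec_zero _, hy.2⟩⟩

/-- the whole bundle -/
@[reducible] def top (hK : Sys.Inv K) (hd : ∀ i, K i ⊆ E.W i) (hσ : E.Sec σ) : Sub K E σ where
  S i x := LinearMap.range (E.p i x).mulVecLin
  dom := hd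
  sec := hσ
  le i x hx := by
    rintro _ ⟨v, rfl⟩
    rw [mulVecLin_apply, mulVec_mulVec, E.p_idem i x (hd i hx)]
  inv i j r hx v _ := ⟨E.g r *ᵥ v, by
    rw [mulVecLin_apply, mulVec_mulVec, E.p_g r (hd i hx) (hd j (hK i j r hx))]⟩
  loc i x hx := by
    refine ⟨E.p i, E.p_sm i x (hd i hx), ?_⟩
    filter_upwards [(E.W_open i).mem_nhds (hd i hx)] with y hy
    refine ⟨hσ.mem i y hy, fun _ => ⟨fun v => ⟨v, rfl⟩, ?_⟩⟩
    rintro _ ⟨v, rfl⟩
    rw [mulVecLin_apply, mulVec_mulVec, E.p_idem i y hy]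

/-- direct sum of subspaces -/
def sS {n m : Type} (S : Submodule ℂ (n → ℂ)) (T : Submodule ℂ (m → ℂ)) :
    Submodule ℂ (n ⊕ m → ℂ) :=
  S.comap (LinearMap.funLeft ℂ ℂ Sum.inl) ⊓ T.comap (LinearMap.funLeft ℂ ℂ Sum.inr)

theorem mem_sS {n m : Type} {S : Submodule ℂ (n → ℂ)} {T : Submodule ℂ (m → ℂ)}
    {v : n ⊕ m → ℂ} : v ∈ sS S T ↔ v ∘ Sum.inl ∈ S ∧ v ∘ Sum.inr ∈ T := Iff.rfl

/-- direct sum of subbundles -/
@[reducible] def sum (S : Sub K E σ) (T : Sub K F τ) : Sub K (E.sum F) (sumV σ τ) where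
  S i x := sS (S.S i x) (T.S i x)
  dom i x h := ⟨S.dom i h, T.dom i h⟩
  sec := S.sec.sum T.sec
  le i x h v hv := by
    rw [blocks_mulVec, S.le i x h _ (mem_sS.1 hv).1, T.le i x h _ (mem_sS.1 hv).2,
      Sum.elim_comp_inl_inr]
  inv i j r h v hv := by
    rw [blocks_mulVec]
    exact ⟨S.inv i j r h _ hv.1, T.inv i j r h _ hv.2⟩
  loc i x h := by
    obtain ⟨q, h1, h2⟩ := S.loc i x h
    obtain ⟨q', h1', h2'⟩ := T.loc i x h
    refine ⟨fun y => fromBlocks (q y) 0 0 (q' y), sm_fromBlocks h1 h1', ?_⟩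
    filter_upwards [h2, h2'] with y a b
    refine ⟨by rw [blocks_mulVec]; exact congrArg₂ Sum.elim a.1 b.1, fun hy => ⟨fun v => ?_, ?_⟩⟩
    · rw [blocks_mulVec]; exact ⟨(a.2 hy).1 _, (b.2 hy).1 _⟩
    · intro v hv
      rw [blocks_mulVec, (a.2 hy).2 _ (mem_sS.1 hv).1, (b.2 hy).2 _ (mem_sS.1 hv).2,
        Sum.elim_comp_inl_inr]

/-- tensor product of subbundles -/
@[reducible] def ten (S : Sub K E σ) (T : Sub K F τ) : Sub K (E.ten F) 0 where
  S i x := tS (S.S i x) (T.S i x)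
  dom i x h := ⟨S.dom i h, T.dom i h⟩
  sec := Sec.zero _
  le i x h v hv := by
    have := tS_ind ((E.p i x ⊗ₖ F.p i x).mulVecLin - LinearMap.id) ⊥ (fun v hv w hw => by
      simp [kron_tv, S.le i x h v hv, T.le i x h w hw]) v hv
    simpa [sub_eq_zero] using this
  inv i j r h v hv := tS_ind (E.g r ⊗ₖ F.g r).mulVecLin _ (fun v hv w hw => by
    rw [mulVecLin_apply, kron_tv]
    exact Submodule.subset_span ⟨_, S.inv i j r h v hv, _, T.inv i j r h w hw, rfl⟩) v hv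
  loc i x h := by
    obtain ⟨q, h1, h2⟩ := S.loc i x h
    obtain ⟨q', h1', h2'⟩ := T.loc i x h
    refine ⟨fun y => q y ⊗ₖ q' y, fun a b => (h1 _ _).mul (h1' _ _), ?_⟩
    filter_upwards [h2, h2'] with y a b
    refine ⟨mulVec_zero _, fun hy => ⟨fun v => ?_, fun v hv => ?_⟩⟩
    · exact tS_ind (q y ⊗ₖ q' y).mulVecLin _ (fun v _ w _ => by
        rw [mulVecLin_apply, kron_tv]
        exact Submodule.subset_span ⟨_, (a.2 hy).1 v, _, (b.2 hy).1 w, rfl⟩) v (mem_tS_top v)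
    · have := tS_ind ((q y ⊗ₖ q' y).mulVecLin - LinearMap.id) ⊥ (fun v hv w hw => by
        simp [kron_tv, (a.2 hy).2 v hv, (b.2 hy).2 w hw]) v hv
      simpa [sub_eq_zero] using this

end Sub

end Crest.Agent.X262.Gw
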