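import Crest.Agent.R208.CW0b

/-!
# Row 262, GW-CORE A (helper10): chart systems with time, invariant forms, bundles

* `Sys` : a proper étale groupoid given by flat charts `U i ⊆ V i`, whose arrows carry a time
  `θ : ℝ` (an arrow of time `θ` from `x` to `y` is an isomorphism `e^{2πiθ}·x ≅ y`); the trivial
  circle action is the case where nothing depends on the time.
* `Sys.D` (derivative of an arrow), `Sys.xi` (the vector field of the action), `Sys.Hol`.
* `Fm`, `Nbhd`, `InvOn`, `SmOn`, `DD = d - i_ξ`, `Cpt` (invariant sets which are compact modulo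
  arrows), `Z K` (germs along `K` of invariant `DD`-closed forms), `B K`, `H K`, `Zr K T`.
* `Bun` : equivariant bundles as idempotent matrix fields with a cocycle; `Bun.mom`, `Bun.Sec`,
  `Sub` (subbundles along `K`), `Hom` (morphisms along `K`), `Mor` (strict morphisms of systems).
-/

set_option autoImplicit false

open scoped ContDiff Topology
open Filter Set Matrix
open Crest.Agent.R208.F Crest.Agent.R208.CW

noncomputable section

namespace Crest.Agent.X262.Gw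

/-- Proper étale groupoid in flat charts, with time. -/
structure Sys where
  ι : Type
  V : ι → Type
  [nV : ∀ i, NormedAddCommGroup (V i)]
  [sV : ∀ i, NormedSpace ℝ (V i)]
  [fV : ∀ i, FiniteDimensional ℝ (V i)]
  U : ∀ i, Set (V i)
  U_open : ∀ i, IsOpen (U i)
  /-- arrows -/
  R : ι → ι → Type
  [tR : ∀ i j, TopologicalSpace (R i j)]
  [hR : ∀ i j, T2Space (R i j)]
  tm : ∀ {i j}, R i j → ℝ
  s : ∀ {i j}, R i j → V i
  t : ∀ {i j}, R i j → V j
  s_mem : ∀ {i j} (r : R i j), s r ∈ U i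
  t_mem : ∀ {i j} (r : R i j), t r ∈ U j
  one : ∀ {i} (x : V i), x ∈ U i → R i i
  inv : ∀ {i j}, R i j → R j i
  mul : ∀ {i j k} (r : R i j) (r' : R j k), t r = s r' → R i k
  /-- shift of the time by one period -/
  sh : ∀ {i j}, R i j ≃ R i j
  /-- the local section of `(tm, s)` through an arrow -/
  ext : ∀ {i j}, R i j → ℝ × V i → R i j
  tm_one : ∀ {i} (x : V i) (h : x ∈ U i), tm (one x h) = 0
  s_one : ∀ {i} (x : V i) (h : x ∈ U i), s (one x h) = x
  t_one : ∀ {i} (x : V i) (h : x ∈ U i), t (one x h) = x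
  tm_inv : ∀ {i j} (r : R i j), tm (inv r) = - tm r
  s_inv : ∀ {i j} (r : R i j), s (inv r) = t r
  t_inv : ∀ {i j} (r : R i j), t (inv r) = s r
  tm_mul : ∀ {i j k} (r : R i j) (r' : R j k) (h : t r = s r'), tm (mul r r' h) = tm r + tm r'
  s_mul : ∀ {i j k} (r : R i j) (r' : R j k) (h : t r = s r'), s (mul r r' h) = s r
  t_mul : ∀ {i j k} (r : R i j) (r' : R j k) (h : t r = s r'), t (mul r r' h) = t r'
  one_mul : ∀ {i j} (r : R i j) (h) (h'), mul (one (s r) h) r h' = r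
  mul_one : ∀ {i j} (r : R i j) (h) (h'), mul r (one (t r) h) h' = r
  mul_inv : ∀ {i j} (r : R i j) (h), mul r (inv r) h = one (s r) (s_mem r)
  inv_mul : ∀ {i j} (r : R i j) (h), mul (inv r) r h = one (t r) (t_mem r)
  mul_assoc : ∀ {i j k l} (r : R i j) (r' : R j k) (r'' : R k l) (h h' h₁ h₂),
    mul (mul r r' h) r'' h₁ = mul r (mul r' r'' h') h₂
  tm_sh : ∀ {i j} (r : R i j), tm (sh r) = tm r + 1
  s_sh : ∀ {i j} (r : R i j), s (sh r) = s r
  t_sh : ∀ {i j} (r : R i j), t (sh r) = t r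
  sh_mul : ∀ {i j k} (r : R i j) (r' : R j k) (h h'), mul (sh r) r' h' = sh (mul r r' h)
  mul_sh : ∀ {i j k} (r : R i j) (r' : R j k) (h h'), mul r (sh r') h' = sh (mul r r' h)
  cont_tm : ∀ i j, Continuous (tm : R i j → ℝ)
  cont_s : ∀ i j, Continuous (s : R i j → V i)
  cont_t : ∀ i j, Continuous (t : R i j → V j)
  cont_one : ∀ i, Continuous fun x : U i => one x.1 x.2
  cont_inv : ∀ i j, Continuous (inv : R i j → R j i)
  cont_mul : ∀ i j k, Continuous fun p : {p : R i j × R j k // t p.1 = s p.2} => mul p.1.1 p.1.2 p.2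
  cont_sh : ∀ i j, Continuous (sh : R i j → R i j)
  cont_sh' : ∀ i j, Continuous (sh.symm : R i j → R i j)
  ext_self : ∀ {i j} (r : R i j), ext r (tm r, s r) = r
  ext_cont : ∀ {i j} (r : R i j), ContinuousAt (ext r) (tm r, s r)
  ext_sec : ∀ {i j} (r : R i j), ∀ᶠ z in 𝓝 (tm r, s r), (tm (ext r z), s (ext r z)) = z
  ext_inj : ∀ {i j} (r : R i j), ∀ᶠ r' in 𝓝 r, ext r (tm r', s r') = r'
  ext_smooth : ∀ {i j} (r : R i j), ContDiffAt ℝ ∞ (fun z => t (ext r z)) (tm r, s r)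
  proper : ∀ i j (A : Set (ℝ × V i)) (B : Set (V j)), IsCompact A → IsCompact B →
    (∀ z ∈ A, z.2 ∈ U i) → B ⊆ U j → IsCompact {r : R i j | (tm r, s r) ∈ A ∧ t r ∈ B}

attribute [instance] Sys.nV Sys.sV Sys.fV Sys.tR Sys.hR

/-- contraction of a complex form with a vector -/
def iC {E : Type*} [AddCommGroup E] [Module ℝ E] (v : E) (c : CF E) : CF E :=
  ⟨ii v c.re, ii v c.im⟩

namespace Sys

variable (G : Sys)

/-- the germ of diffeomorphism defined by an arrow (at fixed time) -/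
def loc {i j : G.ι} (r : G.R i j) (y : G.V i) : G.V j := G.t (G.ext r (G.tm r, y))

/-- the derivative of an arrow -/
def D {i j : G.ι} (r : G.R i j) : G.V i →L[ℝ] G.V j := fderiv ℝ (G.loc r) (G.s r)

open Classical in
/-- the vector field of the circle action -/
def xi (i : G.ι) (x : G.V i) : G.V i :=
  if h : x ∈ G.U i then deriv (fun θ : ℝ => G.t (G.ext (G.one x h) (θ, x))) 0 else 0

/-- families of subsets of the charts -/
abbrev Fam := ∀ i, Set (G.V i)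

/-- families of forms -/
abbrev Fm := ∀ i, G.V i → CF (G.V i)

/-- complex structure: the charts are complex and the arrows are holomorphic -/
structure Hol where
  [cV : ∀ i, NormedSpace ℂ (G.V i)]
  [tV : ∀ i, IsScalarTower ℝ ℂ (G.V i)]
  hol : ∀ {i j} (r : G.R i j) (v : G.V i), G.D r (Complex.I • v) = Complex.I • G.D r v

variable {G}

/-- `W` is an open neighbourhood of `K` -/
def Nbhd (K W : G.Fam) : Prop := ∀ i, IsOpen (W i) ∧ K i ⊆ W i ∧ W i ⊆ G.U i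

/-- invariance of a family of forms under the arrows between points of `W` -/
def InvOn (W : G.Fam) (om : G.Fm) : Prop := ∀ i j (r : G.R i j), G.s r ∈ W i → G.t r ∈ W j →
  om i (G.s r) = pbC (G.D r : G.V i →ₗ[ℝ] G.V j) (om j (G.t r))

/-- smooth on `W` -/
def SmOn (W : G.Fam) (om : G.Fm) : Prop := ∀ i, ∀ x ∈ W i, CD ∞ (om i) x

/-- the equivariant differential -/
def DD (om : G.Fm) : G.Fm := fun i x => dC (om i) x - iC (G.xi i x) (om i x)

/-- invariant subsets -/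
def Inv (K : G.Fam) : Prop := ∀ i j (r : G.R i j), G.s r ∈ K i → G.t r ∈ K j

/-- invariant, compact modulo arrows, and the circle acts -/
structure Cpt (K : G.Fam) : Prop where
  sub : ∀ i, K i ⊆ G.U i
  inv : Inv K
  tot : ∀ i, ∀ x ∈ K i, ∀ θ : ℝ, ∃ (j : G.ι) (r : G.R i j), G.s r = x ∧ G.tm r = θ
  cpt : ∃ (J : Finset G.ι) (C : G.Fam), (∀ j, IsCompact (C j) ∧ C j ⊆ K j) ∧
    ∀ i, ∀ x ∈ K i, ∃ j ∈ J, ∃ r : G.R i j, G.s r = x ∧ G.tm r = 0 ∧ G.t r ∈ C j

/-- smooth and invariant near `K` -/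
def Germ (K : G.Fam) (om : G.Fm) : Prop := ∃ W, Nbhd K W ∧ SmOn W om ∧ InvOn W om

/-- vanishes near every point of `T` -/
def Van (T : G.Fam) (om : G.Fm) : Prop := ∀ i, ∀ x ∈ T i, ∀ᶠ y in 𝓝 x, om i y = 0

/-- the fixed points -/
def Fix (G : Sys) : G.Fam := fun i => {x | x ∈ G.U i ∧ G.xi i x = 0}

end Sys

open Sys

/-- Equivariant vector bundle near the points of the charts: the range of an idempotent matrix
field, with a cocycle. -/
structure Bun (G : Sys) where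
  n : G.ι → Type
  [fn : ∀ i, Fintype (n i)]
  [dn : ∀ i, DecidableEq (n i)]
  /-- where the bundle is defined -/
  W : G.Fam
  W_open : ∀ i, IsOpen (W i)
  W_sub : ∀ i, W i ⊆ G.U i
  p : ∀ i, G.V i → Matrix (n i) (n i) ℂ
  g : ∀ {i j}, G.R i j → Matrix (n j) (n i) ℂ
  p_sm : ∀ i, ∀ x ∈ W i, ∀ a b, ContDiffAt ℝ ∞ (fun y => p i y a b) x
  p_idem : ∀ i, ∀ x ∈ W i, p i x * p i x = p i x
  g_sm : ∀ {i j} (r : G.R i j), G.s r ∈ W i → G.t r ∈ W j → ∀ a b,
    ContDiffAt ℝ ∞ (fun z => g (G.ext r z) a b) (G.tm r, G.s r)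
  g_p : ∀ {i j} (r : G.R i j), G.s r ∈ W i → G.t r ∈ W j → g r * p i (G.s r) = g r
  p_g : ∀ {i j} (r : G.R i j), G.s r ∈ W i → G.t r ∈ W j → p j (G.t r) * g r = g r
  g_one : ∀ {i} (x : G.V i) (h : x ∈ G.U i), x ∈ W i → g (G.one x h) = p i x
  g_mul : ∀ {i j k} (r : G.R i j) (r' : G.R j k) (h), G.s r ∈ W i → G.t r ∈ W j → G.t r' ∈ W k →
    g (G.mul r r' h) = g r' * g r
  g_sh : ∀ {i j} (r : G.R i j), g (G.sh r) = g r

attribute [instance] Bun.fn Bun.dn

namespace Bun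

variable {G : Sys} (E : Bun G)

open Classical in
/-- the infinitesimal action in the frame of the chart; at a fixed point its eigenvalues on the
fibre are `2πi` times the weights -/
def mom (i : G.ι) (x : G.V i) : Matrix (E.n i) (E.n i) ℂ :=
  if h : x ∈ G.U i then
    Matrix.of fun a b => deriv (fun θ : ℝ => E.g (G.ext (G.one x h) (θ, x)) a b) 0 else 0

/-- fields of vectors in the frames -/
abbrev Vec := ∀ i, G.V i → E.n i → ℂ

/-- smooth invariant section on the domain of the bundle -/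
structure Sec (σ : E.Vec) : Prop where
  sm : ∀ i, ∀ x ∈ E.W i, ∀ a, ContDiffAt ℝ ∞ (fun y => σ i y a) x
  mem : ∀ i, ∀ x ∈ E.W i, E.p i x *ᵥ σ i x = σ i x
  inv : ∀ i j (r : G.R i j), G.s r ∈ E.W i → G.t r ∈ E.W j →
    E.g r *ᵥ σ i (G.s r) = σ j (G.t r)

end Bun

/-- A subbundle along `K` of the bundle `E` which contains the section `σ` near `K`
(`σ = 0`: no condition). -/
structure Sub {G : Sys} (K : G.Fam) (E : Bun G) (σ : E.Vec) where
  S : ∀ i, G.V i → Submodule ℂ (E.n i → ℂ)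
  dom : ∀ i, K i ⊆ E.W i
  sec : E.Sec σ
  le : ∀ i, ∀ x ∈ K i, ∀ v ∈ S i x, E.p i x *ᵥ v = v
  inv : ∀ i j (r : G.R i j), G.s r ∈ K i → ∀ v ∈ S i (G.s r), E.g r *ᵥ v ∈ S j (G.t r)
  loc : ∀ i, ∀ x ∈ K i, ∃ q : G.V i → Matrix (E.n i) (E.n i) ℂ,
    (∀ a b, ContDiffAt ℝ ∞ (fun y => q y a b) x) ∧ ∀ᶠ y in 𝓝 x, q y *ᵥ σ i y = σ i y ∧
      (y ∈ K i → (∀ v, q y *ᵥ v ∈ S i y) ∧ ∀ v ∈ S i y, q y *ᵥ v = v)

/-- A field of linear maps between the frames of two bundles which is, along `K`, locally smooth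
and equivariant on the subspaces `S`. -/
structure Hom {G : Sys} (K : G.Fam) {E E' : Bun G} (S : ∀ i, G.V i → Submodule ℂ (E.n i → ℂ))
    (φ : ∀ i, G.V i → Matrix (E'.n i) (E.n i) ℂ) : Prop where
  inv : ∀ i j (r : G.R i j), G.s r ∈ K i → ∀ v ∈ S i (G.s r),
    E'.g r *ᵥ (φ i (G.s r) *ᵥ v) = φ j (G.t r) *ᵥ (E.g r *ᵥ v)
  loc : ∀ i, ∀ x ∈ K i, ∃ q : G.V i → Matrix (E'.n i) (E.n i) ℂ,
    (∀ a b, ContDiffAt ℝ ∞ (fun y => q y a b) x) ∧
      ∀ᶠ y in 𝓝 x, y ∈ K i → ∀ v ∈ S i y, q y *ᵥ v = φ i y *ᵥ v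

/-- Strict smooth morphism of systems. -/
structure Mor (G' G : Sys) where
  j : G'.ι → G.ι
  f : ∀ i, G'.V i → G.V (j i)
  m : ∀ {i i'}, G'.R i i' → G.R (j i) (j i')
  f_sm : ∀ i, ∀ x ∈ G'.U i, ContDiffAt ℝ ∞ (f i) x
  f_mem : ∀ i, ∀ x ∈ G'.U i, f i x ∈ G.U (j i)
  tm_m : ∀ {i i'} (r : G'.R i i'), G.tm (m r) = G'.tm r
  s_m : ∀ {i i'} (r : G'.R i i'), G.s (m r) = f i (G'.s r)
  t_m : ∀ {i i'} (r : G'.R i i'), G.t (m r) = f i' (G'.t r)
  m_one : ∀ {i} (x : G'.V i) (h : x ∈ G'.U i), m (G'.one x h) = G.one (f i x) (f_mem i x h)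
  m_mul : ∀ {i i' i''} (r : G'.R i i') (r' : G'.R i' i'') (h h'),
    m (G'.mul r r' h) = G.mul (m r) (m r') h'
  m_sh : ∀ {i i'} (r : G'.R i i'), m (G'.sh r) = G.sh (m r)
  cont_m : ∀ i i', Continuous (m : G'.R i i' → G.R (j i) (j i'))

namespace Mor

variable {G' G : Sys} (Φ : Mor G' G)

/-- pull-back of forms -/
def pull (om : G.Fm) : G'.Fm := fun i => pullC (Φ.f i) (om (Φ.j i))

/-- `Φ` maps `K'` into `K` -/
def Maps (K' : G'.Fam) (K : G.Fam) : Prop := ∀ i, ∀ x ∈ K' i, Φ.f i x ∈ K (Φ.j i)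

/-- points of `K'` together with an isomorphism of their image with `x` -/
def Fib (K' : G'.Fam) (i : G.ι) (x : G.V i) : Type :=
  Σ i' : G'.ι, {p : G'.V i' × G.R (Φ.j i') i //
    p.1 ∈ K' i' ∧ G.tm p.2 = 0 ∧ G.s p.2 = Φ.f i' p.1 ∧ G.t p.2 = x}

/-- the arrows of `G'` which carry one point of the fibre to another one -/
def Link {K' : G'.Fam} {i : G.ι} {x : G.V i} (a b : Φ.Fib K' i x) : Set (G'.R a.1 b.1) :=
  {r | G'.tm r = 0 ∧ G'.s r = a.2.1.1 ∧ G'.t r = b.2.1.1 ∧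
    ∃ h, G.mul (Φ.m r) b.2.1.2 h = a.2.1.2}

/-- Over every point of `K` there are exactly `k` isomorphism classes of points of `K'`, each with
exactly `n` automorphisms. -/
def Cnt (K' : G'.Fam) (K : G.Fam) (k n : ℕ) : Prop := ∀ i, ∀ x ∈ K i,
  ∃ a : Fin k → Φ.Fib K' i x, (∀ b, ∃! l, (Φ.Link (a l) b).Nonempty) ∧
    ∀ l, (Φ.Link (a l) (a l)).ncard = n

end Mor

end Crest.Agent.X262.Gw
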